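import Vale.Agent.P248.Hexagon

open MeasureTheory Set
open scoped ENNReal

namespace Vale.Agent.Results.P248.MirrorProduct

/-- An origin-symmetric convex body. -/
def IsSymBody {n : ℕ} (K : Set (Fin n → ℝ)) : Prop :=
  IsCompact K ∧ Convex ℝ K ∧ (interior K).Nonempty ∧ ∀ x ∈ K, -x ∈ K

/-- The polar body. -/
def polar {n : ℕ} (K : Set (Fin n → ℝ)) : Set (Fin n → ℝ) :=
  {y | ∀ x ∈ K, ∑ i, x i * y i ≤ 1}

/-- The linear reflection which changes the sign of the `i`-th coordinate in the linear
coordinates `T`. -/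
noncomputable def mirror {n : ℕ} (T : (Fin n → ℝ) ≃ₗ[ℝ] (Fin n → ℝ)) (i : Fin n)
    (x : Fin n → ℝ) : Fin n → ℝ :=
  T.symm (Function.update (T x) i (-(T x i)))

/-- The volume product of a symmetric body invariant under `n - k` commuting linear reflections
is at least `(3 / 2) ^ (k - 1) 4 ^ n / (n! k!)`. -/
theorem result : ∀ n k : ℕ, k ≤ n → ∀ K : Set (Fin n → ℝ), IsSymBody K →
    (∃ T : (Fin n → ℝ) ≃ₗ[ℝ] (Fin n → ℝ), ∀ i : Fin n, (i : ℕ) + k < n →
      ∀ x ∈ K, mirror T i x ∈ K) →
    ENNReal.ofReal ((4 : ℝ) ^ n / (n.factorial * k.factorial) * (3 / 2) ^ (k - 1))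
      ≤ volume K * volume (polar K) := by
  intro n k hk K ⟨hKc, hKx, hKi, hKs⟩ ⟨T, hT⟩
  have hTc : Continuous T := LinearMap.continuous_of_finiteDimensional T.toLinearMap
  have h0 : (0 : Fin n → ℝ) ∈ interior K := by
    obtain ⟨z, hz⟩ := hKi
    have := hKx.combo_interior_self_mem_interior hz (hKs z (interior_subset hz))
      (by norm_num : (0 : ℝ) < 1 / 2) (by norm_num : (0 : ℝ) ≤ 1 / 2) (by norm_num)
    simpa using this
  have hgood : Vale.Agent.P248.Good (T '' K) := by
    refine ⟨hKc.image hTc, hKx.linear_image T.toLinearMap, ?_, ?_⟩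
    · rintro _ ⟨x, hx, rfl⟩
      exact ⟨-x, hKs x hx, map_neg T x⟩
    · have := T.toContinuousLinearEquiv.toHomeomorph.isOpenMap.image_mem_nhds
        (mem_interior_iff_mem_nhds.1 h0)
      have e : T.toContinuousLinearEquiv.toHomeomorph 0 = 0 := map_zero T
      rwa [e] at this
  set M : Finset (Fin n) := Finset.univ.filter fun i : Fin n => (i : ℕ) + k < n with hM
  have hmir : Vale.Agent.P248.Mirrored M (T '' K) := by
    rintro i hi _ ⟨x, hx, rfl⟩
    refine ⟨mirror T i x, hT i (by simpa [hM] using hi) x hx, ?_⟩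
    rw [mirror, T.apply_symm_apply]
    funext j
    by_cases h : j = i
    · subst h; simp [Vale.Agent.P248.negOn]
    · simp [Vale.Agent.P248.negOn, h]
  have hcard : n - M.card = k := by
    have e : M.image Fin.val = Finset.range (n - k) := by
      ext j
      simp only [hM, Finset.mem_image, Finset.mem_filter, Finset.mem_univ, true_and,
        Finset.mem_range]
      constructor
      · rintro ⟨i, hi, rfl⟩; omega
      · intro hj; exact ⟨⟨j, by omega⟩, by simp; omega, rfl⟩
    have := Finset.card_image_of_injective M Fin.val_injective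
    rw [e, Finset.card_range] at this
    omega
  have main := Vale.Agent.P248.product_bound_two n (T '' K) M hgood hmir
  rw [hcard] at main
  set Tt : (Fin n → ℝ) →ₗ[ℝ] (Fin n → ℝ) :=
    Matrix.toLin' (LinearMap.toMatrix' (T : (Fin n → ℝ) →ₗ[ℝ] (Fin n → ℝ))).transpose with hTt
  have hdet : LinearMap.det Tt = LinearMap.det (T : (Fin n → ℝ) →ₗ[ℝ] (Fin n → ℝ)) := by
    rw [hTt, LinearMap.det_toLin', Matrix.det_transpose, LinearMap.det_toMatrix']
  have hd0 : LinearMap.det (T : (Fin n → ℝ) →ₗ[ℝ] (Fin n → ℝ)) ≠ 0 := T.isUnit_det'.ne_zero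
  have hpol : Vale.Agent.P248.pol (T '' K) = Tt ⁻¹' polar K := by
    ext y
    simp only [Vale.Agent.P248.pol, polar, Set.mem_ofPred_eq, mem_preimage, forall_mem_image]
    refine forall₂_congr fun x _ => ?_
    have e : dotProduct (T x) y = dotProduct x (Tt y) := by
      rw [hTt, Matrix.toLin'_apply, Matrix.dotProduct_mulVec, Matrix.vecMul_transpose,
        LinearMap.toMatrix'_mulVec]
      rfl
    rw [e]
    rfl
  have hvol : volume (T '' K) * volume (Vale.Agent.P248.pol (T '' K))
      = volume K * volume (polar K) := by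
    rw [hpol, Measure.addHaar_preimage_linearMap _ (hdet ▸ hd0), hdet,
      show (T '' K) = (T : (Fin n → ℝ) →ₗ[ℝ] (Fin n → ℝ)) '' K from rfl,
      Measure.addHaar_image_linearMap, mul_mul_mul_comm, ← ENNReal.ofReal_mul (abs_nonneg _),
      ← abs_mul, mul_inv_cancel₀ hd0]
    simp
  rw [← hvol]
  calc ENNReal.ofReal ((4 : ℝ) ^ n / (n.factorial * k.factorial) * (3 / 2) ^ (k - 1))
      ≤ ENNReal.ofReal (volume.real (T '' K) * volume.real (Vale.Agent.P248.pol (T '' K))) :=
        ENNReal.ofReal_le_ofReal main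
    _ = volume (T '' K) * volume (Vale.Agent.P248.pol (T '' K)) := by
        rw [ENNReal.ofReal_mul measureReal_nonneg,
          ofReal_measureReal hgood.compact.measure_lt_top.ne,
          ofReal_measureReal hgood.pol.compact.measure_lt_top.ne]

end Vale.Agent.Results.P248.MirrorProduct
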