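import Vale.Agent.P248.Quarter

open MeasureTheory Set
open scoped ENNReal

namespace Vale.Agent.Results.P248.QuarterTurns

/-- An origin-symmetric convex body. -/
def IsSymBody {n : ℕ} (K : Set (Fin n → ℝ)) : Prop :=
  IsCompact K ∧ Convex ℝ K ∧ (interior K).Nonempty ∧ ∀ x ∈ K, -x ∈ K

/-- The polar body. -/
def polar {n : ℕ} (K : Set (Fin n → ℝ)) : Set (Fin n → ℝ) :=
  {y | ∀ x ∈ K, ∑ i, x i * y i ≤ 1}

/-- The quarter turn by which the coordinate `i` becomes minus the coordinate `k` and the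
coordinate `k` becomes the coordinate `i`; for `k = i` the sign change of the coordinate `i`. -/
def turn {n : ℕ} (i k : Fin n) (p : Fin n → ℝ) (j : Fin n) : ℝ :=
  if j = i then -p k else if j = k then p i else p j

/-- The symmetric Mahler inequality for bodies which have, in linear coordinates, a quarter turn or
a mirror at every coordinate with at most one exception. -/
theorem result : ∀ n : ℕ, ∀ K : Set (Fin n → ℝ), IsSymBody K →
    ∀ T : (Fin n → ℝ) ≃ₗ[ℝ] (Fin n → ℝ),
    (∀ i j : Fin n, i ≠ j → (∃ k, ∀ x ∈ K, T.symm (turn i k (T x)) ∈ K) ∨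
      (∃ k, ∀ x ∈ K, T.symm (turn j k (T x)) ∈ K)) →
    ENNReal.ofReal ((4 : ℝ) ^ n / n.factorial) ≤ volume K * volume (polar K) := by
  intro n K ⟨hKc, hKx, hKi, hKs⟩ T hT
  have hTc : Continuous T := LinearMap.continuous_of_finiteDimensional T.toLinearMap
  have h0 : (0 : Fin n → ℝ) ∈ interior K := by
    obtain ⟨z, hz⟩ := hKi
    have := hKx.combo_interior_self_mem_interior hz (hKs z (interior_subset hz))
      (by norm_num : (0 : ℝ) < 1 / 2) (by norm_num : (0 : ℝ) ≤ 1 / 2) (by norm_num)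
    simpa using this
  have hgood : Vale.Agent.P248.Good (T '' K) := by
    refine ⟨hKc.image hTc, hKx.linear_image T.toLinearMap, ?_, ?_⟩
    · rintro _ ⟨x, hx, rfl⟩
      exact ⟨-x, hKs x hx, map_neg T x⟩
    · have := T.toContinuousLinearEquiv.toHomeomorph.isOpenMap.image_mem_nhds
        (mem_interior_iff_mem_nhds.1 h0)
      have e : T.toContinuousLinearEquiv.toHomeomorph 0 = 0 := map_zero T
      rwa [e] at this
  have hturn : ∀ i k : Fin n, (∀ x ∈ K, T.symm (turn i k (T x)) ∈ K) →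
      ∀ p ∈ T '' K, Vale.Agent.P248.qt i k p ∈ T '' K := by
    rintro i k h _ ⟨x, hx, rfl⟩
    refine ⟨_, h x hx, ?_⟩
    rw [T.apply_symm_apply]
    funext j
    rw [turn, Vale.Agent.P248.qt_apply]
  have hq : Vale.Agent.P248.Quartered (T '' K) := fun i j hij =>
    (hT i j hij).imp (fun ⟨k, hk⟩ => ⟨k, hturn i k hk⟩) fun ⟨k, hk⟩ => ⟨k, hturn j k hk⟩
  have main := Vale.Agent.P248.product_bound_quarter n (T '' K) hgood hq
  set Tt : (Fin n → ℝ) →ₗ[ℝ] (Fin n → ℝ) :=
    Matrix.toLin' (LinearMap.toMatrix' (T : (Fin n → ℝ) →ₗ[ℝ] (Fin n → ℝ))).transpose with hTt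
  have hdet : LinearMap.det Tt = LinearMap.det (T : (Fin n → ℝ) →ₗ[ℝ] (Fin n → ℝ)) := by
    rw [hTt, LinearMap.det_toLin', Matrix.det_transpose, LinearMap.det_toMatrix']
  have hd0 : LinearMap.det (T : (Fin n → ℝ) →ₗ[ℝ] (Fin n → ℝ)) ≠ 0 := T.isUnit_det'.ne_zero
  have hpol : Vale.Agent.P248.pol (T '' K) = Tt ⁻¹' polar K := by
    ext y
    simp only [Vale.Agent.P248.pol, polar, Set.mem_ofPred_eq, mem_preimage, forall_mem_image]
    refine forall₂_congr fun x _ => ?_
    have e : dotProduct (T x) y = dotProduct x (Tt y) := by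
      rw [hTt, Matrix.toLin'_apply, Matrix.dotProduct_mulVec, Matrix.vecMul_transpose,
        LinearMap.toMatrix'_mulVec]
      rfl
    rw [e]
    rfl
  have hvol : volume (T '' K) * volume (Vale.Agent.P248.pol (T '' K))
      = volume K * volume (polar K) := by
    rw [hpol, Measure.addHaar_preimage_linearMap _ (hdet ▸ hd0), hdet,
      show (T '' K) = (T : (Fin n → ℝ) →ₗ[ℝ] (Fin n → ℝ)) '' K from rfl,
      Measure.addHaar_image_linearMap, mul_mul_mul_comm, ← ENNReal.ofReal_mul (abs_nonneg _),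
      ← abs_mul, mul_inv_cancel₀ hd0]
    simp
  rw [← hvol]
  calc ENNReal.ofReal ((4 : ℝ) ^ n / n.factorial)
      ≤ ENNReal.ofReal (volume.real (T '' K) * volume.real (Vale.Agent.P248.pol (T '' K))) :=
        ENNReal.ofReal_le_ofReal main
    _ = volume (T '' K) * volume (Vale.Agent.P248.pol (T '' K)) := by
        rw [ENNReal.ofReal_mul measureReal_nonneg,
          ofReal_measureReal hgood.compact.measure_lt_top.ne,
          ofReal_measureReal hgood.pol.compact.measure_lt_top.ne]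

end Vale.Agent.Results.P248.QuarterTurns
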