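import Vale.Agent.P248.Three.Step

open MeasureTheory Set
open scoped ENNReal

namespace Vale.Agent.Results.P248.ThreePlanes

/-- An origin-symmetric convex body. -/
def IsSymBody {n : ℕ} (K : Set (Fin n → ℝ)) : Prop :=
  IsCompact K ∧ Convex ℝ K ∧ (interior K).Nonempty ∧ ∀ x ∈ K, -x ∈ K

/-- The polar body. -/
def polar {n : ℕ} (K : Set (Fin n → ℝ)) : Set (Fin n → ℝ) :=
  {y | ∀ x ∈ K, ∑ i, x i * y i ≤ 1}

/-- Every origin-symmetric convex body in `ℝⁿ`, `n ≥ 3`, has volume product at least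
`(2/9) 12ⁿ / (n!)²`: the sharp value for `n = 3`, three quarters of it for `n = 4`. -/
theorem result : ∀ n : ℕ, 3 ≤ n → ∀ K : Set (Fin n → ℝ), IsSymBody K →
    ENNReal.ofReal (2 / 9 * (12 : ℝ) ^ n / (n.factorial : ℝ) ^ 2)
      ≤ volume K * volume (polar K) := by
  intro n hn
  obtain ⟨m, rfl⟩ := Nat.exists_eq_add_of_le' hn
  intro K ⟨hKc, hKx, hKi, hKs⟩
  have h0 : (0 : Fin (m + 3) → ℝ) ∈ interior K := by
    obtain ⟨z, hz⟩ := hKi
    have := hKx.combo_interior_self_mem_interior hz (hKs z (interior_subset hz))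
      (by norm_num : (0 : ℝ) < 1 / 2) (by norm_num : (0 : ℝ) ≤ 1 / 2) (by norm_num)
    simpa using this
  have hK : Vale.Agent.P248.Good K := ⟨hKc, hKx, hKs, mem_interior_iff_mem_nhds.1 h0⟩
  calc ENNReal.ofReal (2 / 9 * (12 : ℝ) ^ (m + 3) / ((m + 3).factorial : ℝ) ^ 2)
      ≤ ENNReal.ofReal (volume.real K * volume.real (Vale.Agent.P248.pol K)) :=
        ENNReal.ofReal_le_ofReal (Vale.Agent.P248.Three.volume_product_three m K hK)
    _ = volume K * volume (polar K) := by
        rw [ENNReal.ofReal_mul measureReal_nonneg, ofReal_measureReal hKc.measure_lt_top.ne,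
          ofReal_measureReal hK.pol.compact.measure_lt_top.ne]
        rfl

end Vale.Agent.Results.P248.ThreePlanes
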