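import Vale.Agent.P248.EquiMain

open MeasureTheory Set
open scoped ENNReal

namespace Vale.Agent.Results.P248.TurnedCoordinates

/-- An origin-symmetric convex body. -/
def IsSymBody {n : ℕ} (K : Set (Fin n → ℝ)) : Prop :=
  IsCompact K ∧ Convex ℝ K ∧ (interior K).Nonempty ∧ ∀ x ∈ K, -x ∈ K

/-- The polar body. -/
def polar {n : ℕ} (K : Set (Fin n → ℝ)) : Set (Fin n → ℝ) :=
  {y | ∀ x ∈ K, ∑ i, x i * y i ≤ 1}

/-- The quarter turn in the plane of the coordinates `i`, `k` of the linear coordinates `T`. -/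
noncomputable def turn {n : ℕ} (T : (Fin n → ℝ) ≃ₗ[ℝ] (Fin n → ℝ)) (i k : Fin n)
    (x : Fin n → ℝ) : Fin n → ℝ :=
  T.symm fun j => if j = i then -(T x k) else if j = k then T x i else T x j

/-- Mahler's inequality for symmetric bodies which, in some linear coordinates, are invariant
under the quarter turns in the planes of all but two of the coordinates. -/
theorem result : ∀ (n : ℕ) (K : Set (Fin n → ℝ)), 4 ≤ n → IsSymBody K →
    (∃ T : (Fin n → ℝ) ≃ₗ[ℝ] (Fin n → ℝ),
      ∀ i k : Fin n, (i : ℕ) + 2 < n → (k : ℕ) + 2 < n → i ≠ k → ∀ x ∈ K, turn T i k x ∈ K) →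
    ENNReal.ofReal ((4 : ℝ) ^ n / n.factorial) ≤ volume K * volume (polar K) := by
  intro n K hn ⟨hKc, hKx, hKi, hKs⟩ ⟨T, hT⟩
  have hTc : Continuous T := LinearMap.continuous_of_finiteDimensional T.toLinearMap
  have h0 : (0 : Fin n → ℝ) ∈ interior K := by
    obtain ⟨z, hz⟩ := hKi
    have := hKx.combo_interior_self_mem_interior hz (hKs z (interior_subset hz))
      (by norm_num : (0 : ℝ) < 1 / 2) (by norm_num : (0 : ℝ) ≤ 1 / 2) (by norm_num)
    simpa using this
  have hgood : Vale.Agent.P248.Good K := ⟨hKc, hKx, hKs, mem_interior_iff_mem_nhds.1 h0⟩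
  set L : (Fin n → ℝ) →ₗ[ℝ] (Fin n → ℝ) := T.toLinearMap with hL
  have hd : LinearMap.det L ≠ 0 := T.isUnit_det'.ne_zero
  have hg : Vale.Agent.P248.Good (L '' K) := hgood.image hd
  set M : Finset (Fin n) := Finset.univ.filter fun i : Fin n => (i : ℕ) + 2 < n with hM
  have hpair : Vale.Agent.P248.Pairs M (L '' K) := by
    rintro i hi k hk hik _ ⟨x, hx, rfl⟩
    refine ⟨turn T i k x, hT i k (by simpa [hM] using hi) (by simpa [hM] using hk) hik x hx, ?_⟩
    show T (turn T i k x) = _
    rw [turn, T.apply_symm_apply]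
    funext j
    rw [Vale.Agent.P248.qt_apply]
    rfl
  have hturned : Vale.Agent.P248.Turned M (L '' K) := by
    intro i hi
    obtain ⟨k, hk, hik⟩ : ∃ k ∈ M, i ≠ k := by
      by_cases h0 : (i : ℕ) = 0
      · exact ⟨⟨1, by omega⟩, by simp [hM]; omega, by simp [Fin.ext_iff]; omega⟩
      · exact ⟨⟨0, by omega⟩, by simp [hM]; omega, by simp [Fin.ext_iff]; omega⟩
    exact ⟨k, hk, hpair i hi k hk hik⟩
  have main : (4 : ℝ) ^ n / n.factorial ≤
      volume.real (L '' K) * volume.real (Vale.Agent.P248.pol (L '' K)) := by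
    refine Vale.Agent.P248.mahler_turns n (L '' K) M ⟨n - 2, by omega⟩ ⟨n - 1, by omega⟩
      (by simp [Fin.ext_iff]; omega) (by simp [hM]; omega) (by simp [hM]; omega) ?_ hg hturned hpair
    ext i
    simp only [hM, Finset.mem_insert, Finset.mem_filter, Finset.mem_univ, true_and, iff_true,
      Fin.ext_iff]
    omega
  rw [Vale.Agent.P248.product_image hd] at main
  calc ENNReal.ofReal ((4 : ℝ) ^ n / n.factorial)
      ≤ ENNReal.ofReal (volume.real K * volume.real (Vale.Agent.P248.pol K)) :=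
        ENNReal.ofReal_le_ofReal main
    _ = volume K * volume (polar K) := by
        rw [ENNReal.ofReal_mul measureReal_nonneg,
          ofReal_measureReal hgood.compact.measure_lt_top.ne,
          ofReal_measureReal hgood.pol.compact.measure_lt_top.ne]
        rfl

end Vale.Agent.Results.P248.TurnedCoordinates
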